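import Vale.Agent.P150.Beta1.Defs

/-!
# The closed form Stein solution

`steinG` solves `(a - b - Δ tanh a) g - Δ g' = tanh a - tanh b` for every real `Δ`. It is positive,
at most `exp (|Δ| / 2)`, and its logarithm has bounded first and second order variation.
-/

namespace Vale.Agent.P150.Beta1

open MeasureTheory Real intervalIntegral Set

/-- The exponent inside `steinG`. -/
noncomputable def steinE (a b Δ r : ℝ) : ℝ := -(a - b) * r + Δ * (1 - r ^ 2) / 2

/-- The integrand of `steinG`. -/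
noncomputable def steinW (a b Δ r : ℝ) : ℝ := exp (steinE a b Δ r) / (2 * cosh a * cosh b)

/-- The `b`-derivative of `steinG`. -/
noncomputable def steinGb (a b Δ : ℝ) : ℝ :=
  -tanh b * steinG a b Δ + ∫ r in (-1 : ℝ)..1, r * steinW a b Δ r

/-- The `Δ`-derivative of `steinG`. -/
noncomputable def steinGd (a b Δ : ℝ) : ℝ :=
  ∫ r in (-1 : ℝ)..1, (1 - r ^ 2) / 2 * steinW a b Δ r

/-- The logarithmic `a`-derivative `g' / g`. -/
noncomputable def steinH (a b Δ : ℝ) : ℝ := steinG' a b Δ / steinG a b Δ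

variable (a b Δ : ℝ)

lemma steinW_pos (r : ℝ) : 0 < steinW a b Δ r := by
  have := cosh_pos a
  have := cosh_pos b
  unfold steinW
  positivity

lemma steinW_continuous : Continuous (steinW a b Δ) := by
  unfold steinW steinE
  fun_prop

lemma steinG_eq : steinG a b Δ = ∫ r in (-1 : ℝ)..1, steinW a b Δ r := by
  unfold steinG steinW steinE
  rw [intervalIntegral.integral_div]

lemma steinG'_eq : steinG' a b Δ
    = -tanh a * steinG a b Δ - ∫ r in (-1 : ℝ)..1, r * steinW a b Δ r := by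
  unfold steinG' steinW steinE
  rw [← intervalIntegral.integral_div]
  simp only [mul_div_assoc]

lemma steinG_pos : 0 < steinG a b Δ := by
  rw [steinG_eq]
  exact intervalIntegral.intervalIntegral_pos_of_pos
    ((steinW_continuous a b Δ).intervalIntegrable _ _) (steinW_pos a b Δ) (by norm_num)

lemma steinG_identity :
    tanh a - tanh b
      = (a - b - Δ * tanh a) * steinG a b Δ - Δ * steinG' a b Δ := by
  have hd : ∀ r ∈ uIcc (-1 : ℝ) 1, HasDerivAt (fun s => -exp (steinE a b Δ s))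
      ((a - b) * exp (steinE a b Δ r) + Δ * (r * exp (steinE a b Δ r))) r := by
    intro r _
    have h : HasDerivAt (steinE a b Δ) (-(a - b) * 1 + Δ * (-(2 * r)) / 2) r := by
      unfold steinE
      refine ((hasDerivAt_id r).const_mul (-(a - b))).add ?_
      refine ((HasDerivAt.const_sub 1 ?_).const_mul Δ).div_const 2
      simpa using hasDerivAt_pow 2 r
    exact h.exp.neg.congr_deriv (by ring)
  have hc : Continuous fun r => exp (steinE a b Δ r) := by unfold steinE; fun_prop
  have hc' : Continuous fun r => r * exp (steinE a b Δ r) := continuous_id.mul hc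
  have key := integral_eq_sub_of_hasDerivAt hd
    (((hc.const_mul _).add (hc'.const_mul _)).intervalIntegrable _ _)
  rw [intervalIntegral.integral_add ((hc.const_mul _).intervalIntegrable _ _)
    ((hc'.const_mul _).intervalIntegrable _ _), intervalIntegral.integral_const_mul,
    intervalIntegral.integral_const_mul] at key
  have h1 : steinE a b Δ 1 = -(a - b) := by unfold steinE; ring
  have h2 : steinE a b Δ (-1) = a - b := by unfold steinE; ring
  rw [h1, h2] at key
  have hs : 2 * sinh (a - b) = exp (a - b) - exp (-(a - b)) := by rw [sinh_eq]; ring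
  have ha := (cosh_pos a).ne'
  have hb := (cosh_pos b).ne'
  simp only [steinE] at key
  unfold steinG' steinG
  generalize (∫ r in (-1 : ℝ)..1, exp (-(a - b) * r + Δ * (1 - r ^ 2) / 2)) = I0 at key ⊢
  generalize (∫ r in (-1 : ℝ)..1, r * exp (-(a - b) * r + Δ * (1 - r ^ 2) / 2)) = I1 at key ⊢
  rw [tanh_eq_sinh_div_cosh a, tanh_eq_sinh_div_cosh b]
  rw [sinh_sub] at hs
  field_simp
  linear_combination cosh a * hs - cosh a * key

lemma steinW_shift (u v w r : ℝ) : steinW (a + u) (b + v) (Δ + w) r = steinW a b Δ r *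
    exp (-(u - v) * r + w * (1 - r ^ 2) / 2
      - (log (cosh (a + u)) - log (cosh a)) - (log (cosh (b + v)) - log (cosh b))) := by
  unfold steinW steinE
  simp only [exp_sub, exp_log (cosh_pos _)]
  have := (cosh_pos a).ne'
  have := (cosh_pos b).ne'
  have := (cosh_pos (a + u)).ne'
  have := (cosh_pos (b + v)).ne'
  field_simp
  rw [← exp_add]
  congr 1
  ring

lemma hasDerivAt_log_cosh (x : ℝ) : HasDerivAt (fun y => log (cosh y)) (tanh x) x := by
  simpa [tanh_eq_sinh_div_cosh] using (hasDerivAt_cosh x).log (cosh_pos x).ne'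

lemma abs_tanh_sub_le (x y : ℝ) : |tanh x - tanh y| ≤ |x - y| := by
  have h := Convex.norm_image_sub_le_of_norm_hasDerivWithin_le
    (f := tanh) (f' := fun z => 1 - tanh z ^ 2) (C := 1) (s := univ)
    (fun z _ => (hasDerivAt_tanh' z).hasDerivWithinAt)
    (fun z _ => by
      have h1 := (tanh_sq_lt_one z).le
      rw [norm_eq_abs, abs_le]
      constructor <;> nlinarith [sq_nonneg (tanh z)]) convex_univ (mem_univ y) (mem_univ x)
  simpa using h

lemma abs_log_cosh_lin (u : ℝ) :
    |log (cosh (a + u)) - log (cosh a) - tanh a * u| ≤ u ^ 2 := by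
  have h := Convex.norm_image_sub_le_of_norm_hasDerivWithin_le
    (f := fun z => log (cosh z) - tanh a * z) (f' := fun z => tanh z - tanh a) (C := |u|)
    (s := uIcc a (a + u))
    (fun z _ => (((hasDerivAt_log_cosh z).sub ((hasDerivAt_id z).const_mul (tanh a))).congr_deriv
      (by simp)).hasDerivWithinAt)
    (fun z hz => by
      rw [norm_eq_abs]
      refine (abs_tanh_sub_le z a).trans ?_
      simpa using abs_sub_left_of_mem_uIcc hz)
    (convex_uIcc a (a + u)) left_mem_uIcc right_mem_uIcc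
  simp only [norm_eq_abs, add_sub_cancel_left] at h
  rw [show |u| * |u| = u ^ 2 by rw [← sq, sq_abs]] at h
  convert h using 2
  ring

lemma abs_log_cosh_diff (u : ℝ) : |log (cosh (a + u)) - log (cosh a)| ≤ |u| := by
  have h := Convex.norm_image_sub_le_of_norm_hasDerivWithin_le
    (f := fun z => log (cosh z)) (f' := tanh) (C := 1) (s := univ)
    (fun z _ => (hasDerivAt_log_cosh z).hasDerivWithinAt)
    (fun z _ => by rw [norm_eq_abs]; exact (abs_tanh_lt_one z).le)
    convex_univ (mem_univ a) (mem_univ (a + u))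
  simpa using h

variable {r : ℝ}

lemma abs_r_le (hr : r ∈ Icc (-1 : ℝ) 1) : |r| ≤ 1 ∧ 0 ≤ (1 - r ^ 2) / 2 ∧ (1 - r ^ 2) / 2 ≤ 1 / 2 := by
  obtain ⟨h1, h2⟩ := hr
  exact ⟨abs_le.2 ⟨h1, h2⟩, by nlinarith, by nlinarith [sq_nonneg r]⟩

/-- The variation of the exponent and of its linearisation. -/
lemma stein_exponent_bounds (hr : r ∈ Icc (-1 : ℝ) 1) (u v w : ℝ) :
    |-(u - v) * r + w * (1 - r ^ 2) / 2 - tanh a * u - tanh b * v| ≤ 2 * |u| + 2 * |v| + |w| ∧
    |-(u - v) * r + w * (1 - r ^ 2) / 2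
      - (log (cosh (a + u)) - log (cosh a)) - (log (cosh (b + v)) - log (cosh b))|
        ≤ 2 * |u| + 2 * |v| + |w| ∧
    |(-(u - v) * r + w * (1 - r ^ 2) / 2
      - (log (cosh (a + u)) - log (cosh a)) - (log (cosh (b + v)) - log (cosh b)))
      - (-(u - v) * r + w * (1 - r ^ 2) / 2 - tanh a * u - tanh b * v)| ≤ u ^ 2 + v ^ 2 := by
  obtain ⟨h1, h2, h3⟩ := abs_r_le hr
  have e1 : |(u - v) * r| ≤ |u| + |v| := by
    rw [abs_mul]
    exact (mul_le_of_le_one_right (abs_nonneg _) h1).trans (abs_sub u v)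
  have e2 : |w * (1 - r ^ 2) / 2| ≤ |w| := by
    rw [mul_div_assoc, abs_mul, abs_of_nonneg h2]
    exact mul_le_of_le_one_right (abs_nonneg _) (by linarith)
  have e3 : |tanh a * u| ≤ |u| := by
    rw [abs_mul]; exact mul_le_of_le_one_left (abs_nonneg _) (abs_tanh_lt_one a).le
  have e4 : |tanh b * v| ≤ |v| := by
    rw [abs_mul]; exact mul_le_of_le_one_left (abs_nonneg _) (abs_tanh_lt_one b).le
  have e5 := abs_le.1 (abs_log_cosh_diff a u)
  have e6 := abs_le.1 (abs_log_cosh_diff b v)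
  have e7 := abs_le.1 (abs_log_cosh_lin a u)
  have e8 := abs_le.1 (abs_log_cosh_lin b v)
  rw [abs_le] at e1 e2 e3 e4
  refine ⟨abs_le.2 ⟨?_, ?_⟩, abs_le.2 ⟨?_, ?_⟩, abs_le.2 ⟨?_, ?_⟩⟩ <;> linarith

lemma steinW_le_mul (hr : r ∈ Icc (-1 : ℝ) 1) :
    steinW a b Δ r ≤ exp (|Δ| / 2) * steinW a b 0 r := by
  obtain ⟨-, h2, h3⟩ := abs_r_le hr
  have hc := mul_pos (mul_pos two_pos (cosh_pos a)) (cosh_pos b)
  unfold steinW
  rw [← mul_div_assoc, div_le_div_iff_of_pos_right hc, ← exp_add, exp_le_exp]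
  unfold steinE
  nlinarith [le_abs_self Δ, abs_nonneg Δ]

lemma steinW_le (hr : r ∈ Icc (-1 : ℝ) 1) : steinW a b Δ r ≤ 2 * exp (|Δ| / 2) := by
  refine (steinW_le_mul a b Δ hr).trans ?_
  rw [mul_comm 2]
  refine mul_le_mul_of_nonneg_left ?_ (exp_pos _).le
  have hc := mul_pos (mul_pos two_pos (cosh_pos a)) (cosh_pos b)
  unfold steinW steinE
  rw [div_le_iff₀ hc, zero_mul, zero_div, add_zero]
  have h4 : exp (-(a - b) * r) ≤ exp |a - b| := exp_le_exp.2 (by
    refine (le_abs_self _).trans ?_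
    rw [abs_mul, abs_neg]
    exact mul_le_of_le_one_right (abs_nonneg _) (abs_r_le hr).1)
  have h5 : exp |a - b| ≤ 2 * cosh (a - b) := by
    rw [← cosh_abs, cosh_eq]
    have := exp_pos (-|a - b|)
    linarith
  have h6 : cosh (a - b) ≤ 2 * (cosh a * cosh b) := by
    rw [cosh_sub]
    have h7 : |sinh a * sinh b| ≤ cosh a * cosh b := by
      rw [abs_mul]
      gcongr <;> first
        | exact (cosh_pos _).le
        | exact abs_le.2 ⟨by rw [neg_le]; exact (neg_le_iff_add_nonneg'.2 (by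
            rw [sinh_add_cosh]; positivity)), (sinh_lt_cosh _).le⟩
    linarith [(abs_le.1 h7).1]
  nlinarith

lemma steinG_mono_bound (f : ℝ → ℝ) (hf : Continuous f) {C : ℝ}
    (h : ∀ r ∈ Icc (-1 : ℝ) 1, f r ≤ C * steinW a b Δ r) :
    ∫ r in (-1 : ℝ)..1, f r ≤ C * steinG a b Δ := by
  rw [steinG_eq, ← intervalIntegral.integral_const_mul]
  exact intervalIntegral.integral_mono_on (by norm_num) (hf.intervalIntegrable _ _)
    (((steinW_continuous a b Δ).const_mul C).intervalIntegrable _ _) h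

lemma abs_integral_le_steinG (f : ℝ → ℝ) (hf : Continuous f) {C : ℝ}
    (h : ∀ r ∈ Icc (-1 : ℝ) 1, |f r| ≤ C * steinW a b Δ r) :
    |∫ r in (-1 : ℝ)..1, f r| ≤ C * steinG a b Δ := by
  refine abs_le'.2 ⟨steinG_mono_bound a b Δ f hf fun r hr => (le_abs_self _).trans (h r hr), ?_⟩
  rw [← intervalIntegral.integral_neg]
  exact steinG_mono_bound a b Δ (fun r => -f r) hf.neg fun r hr => (neg_le_abs _).trans (h r hr)

lemma abs_moment_le : |∫ r in (-1 : ℝ)..1, r * steinW a b Δ r| ≤ steinG a b Δ := by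
  refine (abs_integral_le_steinG a b Δ (fun r => r * steinW a b Δ r)
    (continuous_id.mul (steinW_continuous a b Δ)) (C := 1) fun r hr => ?_).trans_eq (one_mul _)
  rw [abs_mul, abs_of_pos (steinW_pos a b Δ r)]
  exact mul_le_mul_of_nonneg_right (abs_r_le hr).1 (steinW_pos a b Δ r).le

lemma abs_steinG'_le : |steinG' a b Δ| ≤ 2 * steinG a b Δ := by
  rw [steinG'_eq]
  refine (abs_sub _ _).trans ?_
  rw [abs_mul, abs_neg, abs_of_pos (steinG_pos a b Δ)]
  nlinarith [abs_moment_le a b Δ, abs_tanh_lt_one a, steinG_pos a b Δ]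

lemma abs_steinH_le : |steinH a b Δ| ≤ 2 := by
  rw [steinH, abs_div, abs_of_pos (steinG_pos a b Δ), div_le_iff₀ (steinG_pos a b Δ)]
  exact abs_steinG'_le a b Δ

lemma abs_steinGb_le : |steinGb a b Δ| ≤ 2 * steinG a b Δ := by
  rw [steinGb]
  refine (abs_add_le _ _).trans ?_
  rw [abs_mul, abs_neg, abs_of_pos (steinG_pos a b Δ)]
  nlinarith [abs_moment_le a b Δ, abs_tanh_lt_one b, steinG_pos a b Δ]

lemma steinGd_nonneg : 0 ≤ steinGd a b Δ :=
  intervalIntegral.integral_nonneg (by norm_num) fun r hr =>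
    mul_nonneg (abs_r_le hr).2.1 (steinW_pos a b Δ r).le

lemma steinGd_le : steinGd a b Δ ≤ steinG a b Δ / 2 := by
  rw [div_eq_inv_mul]
  refine steinG_mono_bound a b Δ _ (by fun_prop (disch := simp) [steinW, steinE]) fun r hr => ?_
  rw [← one_div]
  exact mul_le_mul_of_nonneg_right (abs_r_le hr).2.2 (steinW_pos a b Δ r).le

lemma steinG_diag : steinG a a 0 = 1 - tanh a ^ 2 := by
  have := (cosh_pos a).ne'
  unfold steinG
  simp only [sub_self, neg_zero, zero_mul, zero_div, add_zero, exp_zero,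
    intervalIntegral.integral_const, sub_neg_eq_add, smul_eq_mul, mul_one]
  rw [tanh_eq_sinh_div_cosh]
  field_simp
  linarith [cosh_sq_sub_sinh_sq a]

lemma steinG_zero_le_one : steinG a b 0 ≤ 1 := by
  rcases eq_or_ne a b with rfl | hne
  · rw [steinG_diag]; nlinarith [sq_nonneg (tanh a)]
  have h := steinG_identity a b 0
  simp only [zero_mul, sub_zero] at h
  have h2 := abs_tanh_sub_le a b
  rw [h, abs_mul, abs_of_pos (steinG_pos a b 0)] at h2
  exact le_of_mul_le_mul_left (by linarith) (abs_pos.2 (sub_ne_zero.2 hne))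

lemma steinG_le_exp : steinG a b Δ ≤ exp (|Δ| / 2) := by
  have h := steinG_mono_bound a b 0 _ (steinW_continuous a b Δ) fun r hr => steinW_le_mul a b Δ hr
  rw [← steinG_eq] at h
  exact h.trans (mul_le_of_le_one_right (exp_pos _).le (steinG_zero_le_one a b))

lemma exp_sub_lin_bounds (d : ℝ) :
    0 ≤ exp d - 1 - d ∧ exp d - 1 - d ≤ d ^ 2 * max 1 (exp d) := by
  refine ⟨by linarith [add_one_le_exp d], ?_⟩
  rcases le_total 0 d with h | h
  · have h1 := add_one_le_exp (-d)
    have h2 : exp d * exp (-d) = 1 := by rw [← exp_add, add_neg_cancel, exp_zero]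
    have h3 : d ^ 2 * exp d ≤ d ^ 2 * max 1 (exp d) := by gcongr; exact le_max_right _ _
    nlinarith [mul_le_mul_of_nonneg_left h1 (mul_nonneg (add_nonneg zero_le_one h) (exp_pos d).le)]
  · have h1 := add_one_le_exp (-d)
    have h2 : exp d * exp (-d) = 1 := by rw [← exp_add, add_neg_cancel, exp_zero]
    have h3 : d ^ 2 * 1 ≤ d ^ 2 * max 1 (exp d) := by gcongr; exact le_max_left _ _
    nlinarith [mul_le_mul_of_nonneg_left h1 (exp_pos d).le, mul_nonneg (sq_nonneg d) (neg_nonneg.2 h)]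

lemma stein_linear (u v w : ℝ) :
    ∫ r in (-1 : ℝ)..1, steinW a b Δ r
        * (-(u - v) * r + w * (1 - r ^ 2) / 2 - tanh a * u - tanh b * v)
      = steinG' a b Δ * u + steinGb a b Δ * v + steinGd a b Δ * w := by
  have hW := steinW_continuous a b Δ
  have e : ∀ r : ℝ, steinW a b Δ r
        * (-(u - v) * r + w * (1 - r ^ 2) / 2 - tanh a * u - tanh b * v)
      = (v - u) * (r * steinW a b Δ r) + w * ((1 - r ^ 2) / 2 * steinW a b Δ r)
        + (-(tanh a * u) - tanh b * v) * steinW a b Δ r := fun r => by ring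
  simp only [e]
  rw [intervalIntegral.integral_add, intervalIntegral.integral_add,
    intervalIntegral.integral_const_mul, intervalIntegral.integral_const_mul,
    intervalIntegral.integral_const_mul, steinG'_eq, steinGb, steinGd, ← steinG_eq]
  · ring
  all_goals exact Continuous.intervalIntegrable (by fun_prop) _ _

/-- First order Taylor expansion with a quadratic remainder, global in `a`, `b`. -/
lemma steinG_taylor {L : ℝ} (u v w : ℝ) (hΔ : |Δ| ≤ L) (hw : |Δ + w| ≤ L) :
    |steinG (a + u) (b + v) (Δ + w) - steinG a b Δ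
        - steinG' a b Δ * u - steinGb a b Δ * v - steinGd a b Δ * w|
      ≤ 52 * exp (L / 2) * (u ^ 2 + v ^ 2 + w ^ 2) := by
  have hW := steinW_continuous a b Δ
  have hW' := steinW_continuous (a + u) (b + v) (Δ + w)
  have key : ∀ r ∈ Icc (-1 : ℝ) 1,
      ‖steinW (a + u) (b + v) (Δ + w) r - steinW a b Δ r - steinW a b Δ r
        * (-(u - v) * r + w * (1 - r ^ 2) / 2 - tanh a * u - tanh b * v)‖
      ≤ 26 * exp (L / 2) * (u ^ 2 + v ^ 2 + w ^ 2) := by
    intro r hr
    obtain ⟨-, hd, hdl⟩ := stein_exponent_bounds a b hr u v w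
    have hM : ∀ a' b' Δ', |Δ'| ≤ L → steinW a' b' Δ' r ≤ 2 * exp (L / 2) := fun a' b' Δ' h =>
      (steinW_le a' b' Δ' hr).trans (by gcongr)
    have hM1 := hM a b Δ hΔ
    have hM2 := hM (a + u) (b + v) (Δ + w) hw
    rw [steinW_shift] at hM2 ⊢
    generalize -(u - v) * r + w * (1 - r ^ 2) / 2
      - (log (cosh (a + u)) - log (cosh a)) - (log (cosh (b + v)) - log (cosh b)) = d at *
    generalize -(u - v) * r + w * (1 - r ^ 2) / 2 - tanh a * u - tanh b * v = l at *
    obtain ⟨he1, he2⟩ := exp_sub_lin_bounds d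
    set W := steinW a b Δ r with hWdef
    have hW0 : 0 < W := steinW_pos a b Δ r
    have hmax : W * max 1 (exp d) ≤ 2 * exp (L / 2) := by
      rw [mul_max_of_nonneg _ _ hW0.le, mul_one]; exact max_le hM1 hM2
    have hd2 : d ^ 2 ≤ 12 * (u ^ 2 + v ^ 2 + w ^ 2) := by
      have h1 : |d| ^ 2 ≤ (2 * |u| + 2 * |v| + |w|) ^ 2 := by gcongr
      rw [sq_abs] at h1
      nlinarith [sq_nonneg (|u| - |v|), sq_nonneg (|u| - 2 * |w|), sq_nonneg (|v| - 2 * |w|),
        sq_abs u, sq_abs v, sq_abs w]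
    rw [norm_eq_abs, show W * exp d - W - W * l = W * (exp d - 1 - d) + W * (d - l) by ring]
    refine (abs_add_le _ _).trans ?_
    rw [abs_mul, abs_mul, abs_of_pos hW0, abs_of_nonneg he1]
    have h3 : W * (exp d - 1 - d) ≤ 12 * (u ^ 2 + v ^ 2 + w ^ 2) * (2 * exp (L / 2)) :=
      calc W * (exp d - 1 - d) ≤ W * (d ^ 2 * max 1 (exp d)) := by gcongr
        _ = d ^ 2 * (W * max 1 (exp d)) := by ring
        _ ≤ _ := by gcongr
    have h4 : W * |d - l| ≤ 2 * exp (L / 2) * (u ^ 2 + v ^ 2 + w ^ 2) :=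
      mul_le_mul hM1 (hdl.trans (by linarith [sq_nonneg w])) (abs_nonneg _) (by positivity)
    linarith
  have hI := intervalIntegral.norm_integral_le_of_norm_le_const fun r hr =>
    key r (Ioc_subset_Icc_self (by rwa [uIoc_of_le (by norm_num : (-1 : ℝ) ≤ 1)] at hr))
  rw [intervalIntegral.integral_sub (Continuous.intervalIntegrable (by fun_prop) _ _)
    (Continuous.intervalIntegrable (by fun_prop) _ _),
    intervalIntegral.integral_sub (hW'.intervalIntegrable _ _) (hW.intervalIntegrable _ _),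
    stein_linear, ← steinG_eq, ← steinG_eq, norm_eq_abs, show |(1 : ℝ) - -1| = 2 by norm_num] at hI
  refine le_trans (le_of_eq ?_) (hI.trans_eq (by ring))
  congr 1
  ring

end Vale.Agent.P150.Beta1
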