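import Vale.Agent.P150.Beta1.Stein.Basic

/-!
# Relative bounds for the Stein solution

First and second order variation of `log steinG`, Lipschitz bounds for `steinG` and for `g' / g`.
None of the relative bounds needs a bound on `Δ`.
-/

namespace Vale.Agent.P150.Beta1

open MeasureTheory Real intervalIntegral Set

variable (a b Δ : ℝ)

/-- `log steinG` is Lipschitz. -/
lemma steinG_le_mul_exp (u v w : ℝ) :
    steinG (a + u) (b + v) (Δ + w) ≤ exp (2 * |u| + 2 * |v| + |w|) * steinG a b Δ := by
  rw [steinG_eq (a + u)]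
  refine steinG_mono_bound a b Δ _ (steinW_continuous _ _ _) fun r hr => ?_
  rw [steinW_shift, mul_comm (exp _)]
  refine mul_le_mul_of_nonneg_left (exp_le_exp.2 ?_) (steinW_pos a b Δ r).le
  exact (le_abs_self _).trans (stein_exponent_bounds a b hr u v w).2.1

lemma abs_log_steinG_sub_le (u v w : ℝ) :
    |log (steinG (a + u) (b + v) (Δ + w)) - log (steinG a b Δ)| ≤ 2 * |u| + 2 * |v| + |w| := by
  have h1 := steinG_le_mul_exp a b Δ u v w
  have h2 := steinG_le_mul_exp (a + u) (b + v) (Δ + w) (-u) (-v) (-w)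
  simp only [abs_neg, add_neg_cancel_right] at h2
  have p1 := steinG_pos a b Δ
  have p2 := steinG_pos (a + u) (b + v) (Δ + w)
  have l1 := log_le_log p2 h1
  have l2 := log_le_log p1 h2
  rw [log_mul (exp_pos _).ne' p1.ne', log_exp] at l1
  rw [log_mul (exp_pos _).ne' p2.ne', log_exp] at l2
  exact abs_le.2 ⟨by linarith, by linarith⟩

/-- `steinG` is Lipschitz. -/
lemma abs_steinG_sub_le {L : ℝ} (u v w : ℝ) (hΔ : |Δ| ≤ L) (hw : |Δ + w| ≤ L) :
    |steinG (a + u) (b + v) (Δ + w) - steinG a b Δ|
      ≤ exp (L / 2) * (2 * |u| + 2 * |v| + |w|) := by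
  have key : ∀ x y : ℝ, 0 < x → 0 < y → x ≤ exp (L / 2) → log x - log y ≤ 2 * |u| + 2 * |v| + |w|
      → x - y ≤ exp (L / 2) * (2 * |u| + 2 * |v| + |w|) := by
    intro x y hx hy hxL hlog
    have h1 := one_sub_inv_le_log_of_pos (div_pos hx hy)
    rw [log_div hx.ne' hy.ne', inv_div] at h1
    have h2 : x * (1 - y / x) ≤ x * (2 * |u| + 2 * |v| + |w|) :=
      mul_le_mul_of_nonneg_left (h1.trans hlog) hx.le
    rw [mul_sub, mul_one, mul_div_cancel₀ _ hx.ne'] at h2
    exact h2.trans (mul_le_mul_of_nonneg_right hxL (by positivity))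
  have hl := abs_le.1 (abs_log_steinG_sub_le a b Δ u v w)
  have hL : ∀ a' b' Δ', |Δ'| ≤ L → steinG a' b' Δ' ≤ exp (L / 2) := fun a' b' Δ' h =>
    (steinG_le_exp a' b' Δ').trans (by gcongr)
  refine abs_le'.2 ⟨key _ _ (steinG_pos _ _ _) (steinG_pos _ _ _) (hL _ _ _ hw) hl.2, ?_⟩
  rw [neg_sub]
  exact key _ _ (steinG_pos _ _ _) (steinG_pos _ _ _) (hL _ _ _ hΔ) (by linarith [hl.1])

/-- `steinG` is close to `1 - tanh b ^ 2` when `a` is close to `b` and `Δ` is small. -/
lemma abs_steinG_sub_sech {L : ℝ} (hΔ : |Δ| ≤ L) :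
    |steinG a b Δ - (1 - tanh b ^ 2)| ≤ exp (L / 2) * (2 * |a - b| + |Δ|) := by
  have h := abs_steinG_sub_le b b 0 (a - b) 0 Δ (L := L)
    (by simpa using (abs_nonneg Δ).trans hΔ) (by simpa using hΔ)
  simpa [steinG_diag] using h

lemma exp_le_exp_sq_of_one_le {c : ℝ} (hc : 1 ≤ c) : exp c ≤ exp (3 * c ^ 2) :=
  exp_le_exp.2 (by nlinarith)

/-- Second order expansion of `log steinG`, without any bound on `Δ`. -/
lemma abs_log_steinG_taylor (u v w : ℝ) :
    |log (steinG (a + u) (b + v) (Δ + w)) - log (steinG a b Δ)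
        - (steinG' a b Δ * u + steinGb a b Δ * v + steinGd a b Δ * w) / steinG a b Δ|
      ≤ 145 * (u ^ 2 + v ^ 2 + w ^ 2) := by
  set m := (steinG' a b Δ * u + steinGb a b Δ * v + steinGd a b Δ * w) / steinG a b Δ with hm
  set c := 4 * |u| + 4 * |v| + 2 * |w| with hc
  set S := u ^ 2 + v ^ 2 + w ^ 2 with hS
  set l := fun r : ℝ => -(u - v) * r + w * (1 - r ^ 2) / 2 - tanh a * u - tanh b * v with hl
  have hg := steinG_pos a b Δ
  have hW := steinW_continuous a b Δ
  have hlc : Continuous l := by rw [hl]; fun_prop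
  have hlin : ∫ r in (-1 : ℝ)..1, steinW a b Δ r * (l r - m) = 0 := by
    simp only [mul_sub]
    have e := stein_linear a b Δ u v w
    rw [intervalIntegral.integral_sub (Continuous.intervalIntegrable (by fun_prop) _ _)
      (Continuous.intervalIntegrable (by fun_prop) _ _),
      intervalIntegral.integral_mul_const, ← steinG_eq, hl, e, hm, mul_div_cancel₀ _ hg.ne',
      sub_self]
  have hmc : |m| ≤ c / 2 := by
    have h := abs_integral_le_steinG a b Δ _ (hW.mul hlc) (C := c / 2) fun r hr => by
      rw [Pi.mul_apply, abs_mul, abs_of_pos (steinW_pos a b Δ r), mul_comm]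
      refine mul_le_mul_of_nonneg_right ?_ (steinW_pos a b Δ r).le
      exact (stein_exponent_bounds a b hr u v w).1.trans_eq (by rw [hc]; ring)
    rw [show ∫ r in (-1 : ℝ)..1, (steinW a b Δ * l) r = ∫ r in (-1 : ℝ)..1, steinW a b Δ r * l r
      from rfl, stein_linear] at h
    rw [hm, abs_div, abs_of_pos hg, div_le_iff₀ hg]
    exact h
  have hshift : ∀ r ∈ Icc (-1 : ℝ) 1,
      steinW a b Δ r * exp (l r - S) ≤ steinW (a + u) (b + v) (Δ + w) r ∧
      steinW (a + u) (b + v) (Δ + w) r ≤ steinW a b Δ r * exp (l r + S) := by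
    intro r hr
    have h := abs_le.1 (stein_exponent_bounds a b hr u v w).2.2
    have h2 : u ^ 2 + v ^ 2 ≤ S := by rw [hS]; nlinarith [sq_nonneg w]
    have hp := (steinW_pos a b Δ r).le
    rw [steinW_shift]
    exact ⟨mul_le_mul_of_nonneg_left (exp_le_exp.2 (by simp only [hl]; linarith)) hp,
      mul_le_mul_of_nonneg_left (exp_le_exp.2 (by simp only [hl]; linarith)) hp⟩
  have hlow : exp (m - S) * steinG a b Δ ≤ steinG (a + u) (b + v) (Δ + w) := by
    have h1 : ∫ r in (-1 : ℝ)..1, exp (m - S) * (steinW a b Δ r + steinW a b Δ r * (l r - m))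
        ≤ ∫ r in (-1 : ℝ)..1, steinW (a + u) (b + v) (Δ + w) r := by
      refine intervalIntegral.integral_mono_on (by norm_num)
        (Continuous.intervalIntegrable (by fun_prop) _ _)
        ((steinW_continuous _ _ _).intervalIntegrable _ _) fun r hr => le_trans ?_ (hshift r hr).1
      rw [show exp (l r - S) = exp (m - S) * exp (l r - m) by rw [← exp_add]; congr 1; ring]
      have h3 := mul_le_mul_of_nonneg_left (add_one_le_exp (l r - m))
        (mul_nonneg (exp_pos (m - S)).le (steinW_pos a b Δ r).le)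
      linarith
    rwa [intervalIntegral.integral_const_mul, intervalIntegral.integral_add
      (hW.intervalIntegrable _ _) (Continuous.intervalIntegrable (by fun_prop) _ _),
      hlin, add_zero, ← steinG_eq, ← steinG_eq] at h1
  have hup : steinG (a + u) (b + v) (Δ + w) ≤ exp (m + S + 3 * c ^ 2) * steinG a b Δ := by
    have hd : ∀ r ∈ Icc (-1 : ℝ) 1, |l r - m| ≤ c := fun r hr => by
      refine (abs_sub _ _).trans ?_
      have := (stein_exponent_bounds a b hr u v w).1
      simp only [hl]
      rw [hc] at hmc ⊢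
      linarith
    rcases le_total c 1 with hc1 | hc1
    · have h1 : ∫ r in (-1 : ℝ)..1, steinW (a + u) (b + v) (Δ + w) r
          ≤ ∫ r in (-1 : ℝ)..1, exp (m + S) *
              ((1 + 3 * c ^ 2) * steinW a b Δ r + steinW a b Δ r * (l r - m)) := by
        refine intervalIntegral.integral_mono_on (by norm_num)
          ((steinW_continuous _ _ _).intervalIntegrable _ _)
          (Continuous.intervalIntegrable (by fun_prop) _ _) fun r hr => (hshift r hr).2.trans ?_
        rw [show exp (l r + S) = exp (m + S) * exp (l r - m) by rw [← exp_add]; congr 1; ring]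
        have h2 := (exp_sub_lin_bounds (l r - m)).2
        have h3 := hd r hr
        have h4 : max 1 (exp (l r - m)) ≤ 3 := max_le (by norm_num)
          ((exp_le_exp.2 ((le_abs_self _).trans (h3.trans hc1))).trans exp_one_lt_three.le)
        have h5 : (l r - m) ^ 2 ≤ c ^ 2 := by
          rw [← sq_abs]; gcongr
        have h6 : exp (l r - m) ≤ 1 + 3 * c ^ 2 + (l r - m) := by
          have : (l r - m) ^ 2 * max 1 (exp (l r - m)) ≤ c ^ 2 * 3 := by gcongr
          linarith
        have h7 := mul_le_mul_of_nonneg_left h6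
          (mul_nonneg (exp_pos (m + S)).le (steinW_pos a b Δ r).le)
        linarith
      rw [intervalIntegral.integral_const_mul, intervalIntegral.integral_add
        ((hW.const_mul _).intervalIntegrable _ _) (Continuous.intervalIntegrable (by fun_prop) _ _),
        intervalIntegral.integral_const_mul, hlin, add_zero, ← steinG_eq, ← steinG_eq] at h1
      refine h1.trans ?_
      rw [exp_add (m + S), mul_assoc]
      gcongr
      linarith [add_one_le_exp (3 * c ^ 2)]
    · rw [exp_add (m + S), steinG_eq (a + u)]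
      refine steinG_mono_bound a b Δ _ (steinW_continuous _ _ _) fun r hr => (hshift r hr).2.trans ?_
      rw [mul_comm (steinW a b Δ r)]
      refine mul_le_mul_of_nonneg_right ?_ (steinW_pos a b Δ r).le
      rw [show exp (l r + S) = exp (m + S) * exp (l r - m) by rw [← exp_add]; congr 1; ring]
      exact mul_le_mul_of_nonneg_left ((exp_le_exp.2 ((le_abs_self _).trans (hd r hr))).trans
        (exp_le_exp_sq_of_one_le hc1)) (exp_pos _).le
  have hc2 : c ^ 2 ≤ 48 * S := by
    rw [hc, hS]
    nlinarith [sq_nonneg (|u| - |v|), sq_nonneg (|u| - 2 * |w|), sq_nonneg (|v| - 2 * |w|),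
      sq_abs u, sq_abs v, sq_abs w]
  have hS0 : 0 ≤ S := by rw [hS]; positivity
  have p2 := steinG_pos (a + u) (b + v) (Δ + w)
  have l1 := log_le_log (mul_pos (exp_pos _) hg) hlow
  have l2 := log_le_log p2 hup
  rw [log_mul (exp_pos _).ne' hg.ne', log_exp] at l1 l2
  exact abs_le.2 ⟨by linarith, by linarith⟩

/-- `g' / g` is Lipschitz, without any bound on `Δ`. -/
lemma abs_steinH_sub_le (u v w : ℝ) :
    |steinH (a + u) (b + v) (Δ + w) - steinH a b Δ| ≤ 25 * (|u| + |v| + |w|) := by
  set c := 2 * |u| + 2 * |v| + |w| with hc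
  set ρ := (∫ r in (-1 : ℝ)..1, r * steinW a b Δ r) / steinG a b Δ with hρ
  set ρ' := (∫ r in (-1 : ℝ)..1, r * steinW (a + u) (b + v) (Δ + w) r)
    / steinG (a + u) (b + v) (Δ + w) with hρ'
  have hW := steinW_continuous a b Δ
  have hW' := steinW_continuous (a + u) (b + v) (Δ + w)
  have g0 := steinG_pos a b Δ
  have g1 := steinG_pos (a + u) (b + v) (Δ + w)
  have hH : ∀ p q s, steinH p q s
      = -tanh p - (∫ r in (-1 : ℝ)..1, r * steinW p q s r) / steinG p q s := fun p q s => by
    rw [steinH, steinG'_eq, sub_div, mul_div_cancel_right₀ _ (steinG_pos p q s).ne']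
  have hρb : ∀ p q s, |(∫ r in (-1 : ℝ)..1, r * steinW p q s r) / steinG p q s| ≤ 1 :=
    fun p q s => by
      rw [abs_div, abs_of_pos (steinG_pos p q s), div_le_one (steinG_pos p q s)]
      exact abs_moment_le p q s
  have key : |ρ' - ρ| ≤ 12 * c := by
    rcases le_total 1 c with hc1 | hc1
    · refine (abs_sub _ _).trans ?_
      linarith [hρb a b Δ, hρb (a + u) (b + v) (Δ + w)]
    have e : ρ' - ρ = (∫ r in (-1 : ℝ)..1,
        (r - ρ) * (steinW (a + u) (b + v) (Δ + w) r - steinW a b Δ r))
        / steinG (a + u) (b + v) (Δ + w) := by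
      have e1 : ∀ r : ℝ, (r - ρ) * (steinW (a + u) (b + v) (Δ + w) r - steinW a b Δ r)
          = (r * steinW (a + u) (b + v) (Δ + w) r - ρ * steinW (a + u) (b + v) (Δ + w) r)
            - (r * steinW a b Δ r - ρ * steinW a b Δ r) := fun r => by ring
      simp only [e1]
      rw [intervalIntegral.integral_sub, intervalIntegral.integral_sub,
        intervalIntegral.integral_sub, intervalIntegral.integral_const_mul,
        intervalIntegral.integral_const_mul, ← steinG_eq, ← steinG_eq]
      · rw [hρ, hρ']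
        field_simp
        ring
      all_goals exact Continuous.intervalIntegrable (by fun_prop) _ _
    have h1 : |∫ r in (-1 : ℝ)..1,
        (r - ρ) * (steinW (a + u) (b + v) (Δ + w) r - steinW a b Δ r)| ≤ 4 * c * steinG a b Δ := by
      refine abs_integral_le_steinG a b Δ _ (by fun_prop) fun r hr => ?_
      have hd := (stein_exponent_bounds a b hr u v w).2.1
      rw [steinW_shift]
      generalize -(u - v) * r + w * (1 - r ^ 2) / 2
        - (log (cosh (a + u)) - log (cosh a)) - (log (cosh (b + v)) - log (cosh b)) = d at hd ⊢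
      rw [← mul_sub_one, abs_mul, abs_mul, abs_of_pos (steinW_pos a b Δ r)]
      have h2 : |r - ρ| ≤ 2 := (abs_sub _ _).trans (by linarith [(abs_r_le hr).1, hρb a b Δ])
      have h3 : |exp d - 1| ≤ 2 * c := (abs_exp_sub_one_le (hd.trans hc1)).trans (by linarith)
      calc |r - ρ| * (steinW a b Δ r * |exp d - 1|)
          ≤ 2 * (steinW a b Δ r * (2 * c)) := by
            have := (steinW_pos a b Δ r).le
            gcongr
        _ = 4 * c * steinW a b Δ r := by ring
    have h4 : steinG a b Δ ≤ 3 * steinG (a + u) (b + v) (Δ + w) := by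
      have h := steinG_le_mul_exp (a + u) (b + v) (Δ + w) (-u) (-v) (-w)
      simp only [abs_neg, add_neg_cancel_right] at h
      refine h.trans (mul_le_mul_of_nonneg_right ?_ g1.le)
      exact (exp_le_exp.2 hc1).trans exp_one_lt_three.le
    rw [e, abs_div, abs_of_pos g1, div_le_iff₀ g1]
    have hc0 : 0 ≤ 4 * c := by rw [hc]; positivity
    nlinarith [mul_le_mul_of_nonneg_left h4 hc0]
  have ht := abs_le.1 (abs_tanh_sub_le (a + u) a)
  rw [add_sub_cancel_left] at ht
  rw [hH, hH, ← hρ, ← hρ']
  have := abs_le.1 key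
  have h0 := abs_nonneg u
  have h0' := abs_nonneg v
  have h0'' := abs_nonneg w
  rw [hc] at this
  exact abs_le.2 ⟨by linarith, by linarith⟩

end Vale.Agent.P150.Beta1
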